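import Mathlib

/-!
# Row 252 (S0492, Kakeya sets in `ℝ⁴`), unit GLUE, file 1: definitions      (architect helper171)

THE FINITE-SCALE STATEMENT TO WHICH THE FROZEN THEOREM IS REDUCED.   Coordinates `(t, x) ∈ ℝ × ℝ³`, lines `x(t) = b + t s`, scale `δ = 2^{-k}`.
`GluBad σ C k` = a finite family of lines `(b i, s i)`, `b i ∈ [0,4]³`, `s i ∈ [0,1]³`, slopes `δ`-separated (sup norm, strictly), at least `δ^{-3} / (C k²)` of them,
each with a set `J i ⊆ {0, …, 2^k - 1}` of at least `2^k / (C k²)` marked time bins, such that the marked points `(j δ, b i + j δ s i)` visit at most `C δ^{σ - 4}` cells of the `δ`-grid of `ℝ⁴`.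
`GluKak4` = for every `σ > 0`, `C` there is no such family at small scales.      `glu_top : GluKak4 → (frozen statement S0492)` is in `Glue/Top.lean`.
This is the paragraph "A finite selection from outer measure" of Theorem 2.17 (02-framework.tex l.1172-1250), with the balls of `U_k` replaced by the visited grid cells (every ball of radius `≤ δ` meets `O(1)` cells).
-/

set_option autoImplicit false

namespace Claimed.Agent.R252

open MeasureTheory
open scoped ENNReal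

/-- the point `(t, x)` of `ℝ⁴` -/
noncomputable def gluPt (t : ℝ) (x : Fin 3 → ℝ) : EuclideanSpace ℝ (Fin 4) :=
  WithLp.toLp 2 (Fin.cons t x : Fin 4 → ℝ)

/-- the cell of the `2^{-k}`-grid visited by the line `(b, s)` at the time `j 2^{-k}` -/
noncomputable def gluCell (k : ℕ) (b s : Fin 3 → ℝ) (j : ℕ) : ℕ × (Fin 3 → ℤ) :=
  (j, fun a => ⌊(b a + (j : ℝ) / 2 ^ k * s a) * 2 ^ k⌋)

open Classical in
/-- a finite-scale counterexample at the scale `δ = 2^{-k}` -/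
def GluBad (σ C : ℝ) (k : ℕ) : Prop :=
  ∃ (ι : Type) (_ : Fintype ι) (b s : ι → Fin 3 → ℝ) (J : ι → Finset ℕ),
    (∀ i a, 0 ≤ b i a ∧ b i a ≤ 4) ∧ (∀ i a, 0 ≤ s i a ∧ s i a ≤ 1) ∧
    (∀ i i', i ≠ i' → ∃ a, 1 / (2 : ℝ) ^ k < |s i a - s i' a|) ∧
    (2 : ℝ) ^ (3 * k) ≤ C * (k : ℝ) ^ 2 * Fintype.card ι ∧
    (∀ i, J i ⊆ Finset.range (2 ^ k) ∧ (2 : ℝ) ^ k ≤ C * (k : ℝ) ^ 2 * (J i).card) ∧
    ((Finset.univ.biUnion fun i => (J i).image (gluCell k (b i) (s i))).card : ℝ)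
      ≤ C * (2 : ℝ) ^ ((4 - σ) * (k : ℝ))

/-- **the discretised Kakeya statement in `ℝ⁴`** (what the rest of row 252 has to prove) -/
def GluKak4 : Prop := ∀ σ C : ℝ, 0 < σ → ∃ k0 : ℕ, ∀ k : ℕ, k0 ≤ k → ¬ GluBad σ C k

/-- weights with `∑ ≤ 1/2` and only a logarithmic loss in `δ` -/
noncomputable def gluW (k : ℕ) : ℝ := 1 / (2 * ((k : ℝ) + 1) * ((k : ℝ) + 2))

/-- `(b, s)` is a witness line of `K` in the normalised chart `(m, n)`: time `(m + t) / 4`, position `n + x / 4` -/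
def GluWit (K : Set (EuclideanSpace ℝ (Fin 4))) (m : ℤ) (n : Fin 3 → ℤ) (b s : Fin 3 → ℝ) : Prop :=
  (∀ a, 0 ≤ b a ∧ b a ≤ 4) ∧ (∀ a, 0 ≤ s a ∧ s a ≤ 1) ∧
    ∀ t ∈ Set.Icc (0 : ℝ) 1, gluPt (((m : ℝ) + t) / 4) (fun a => (n a : ℝ) + (b a + t * s a) / 4) ∈ K

/-- the point of the line `(b, s)` at the time `t` lies in the box with centre `(τ, z)` and half side `ρ` -/
def GluIn (b s : Fin 3 → ℝ) (t τ : ℝ) (z : Fin 3 → ℝ) (ρ : ℝ) : Prop :=
  |t - τ| ≤ ρ ∧ ∀ a, |b a + t * s a - z a| ≤ ρ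

theorem glu_eqns_cite : True := by
  have := @gluPt.eq_1
  have := @gluCell.eq_1
  have := @GluBad.eq_1
  have := @GluKak4.eq_1
  have := @gluW.eq_1
  have := @GluWit.eq_1
  have := @GluIn.eq_1
  trivial

end Claimed.Agent.R252
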