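import Claimed.Agent.R252.Glue.Cover

/-!
# Row 252, unit GLUE, file 4 (CONTRACT): the normalised chart      (architect helper171)
-/

set_option autoImplicit false

namespace Claimed.Agent.R252

open MeasureTheory
open scoped ENNReal NNReal

theorem glu_pt_zero (t : ℝ) (x : Fin 3 → ℝ) : gluPt t x 0 = t := by
  simp [gluPt]

theorem glu_pt_succ (t : ℝ) (x : Fin 3 → ℝ) (a : Fin 3) : gluPt t x a.succ = x a := by
  simp [gluPt]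

theorem glu_pt_norm_sq (t : ℝ) (x : Fin 3 → ℝ) : ‖gluPt t x‖ ^ 2 = t ^ 2 + ∑ a, x a ^ 2 := by
  rw [EuclideanSpace.norm_sq_eq, Fin.sum_univ_succ]
  simp [glu_pt_zero, glu_pt_succ]

/-- **LEAF L-252-GLU-B.**  `e = ν⁻¹ • gluPt 1 s`, `ν = ‖gluPt 1 s‖ ∈ (0, 2]` (`EuclideanSpace.norm_eq`, `Fin.sum_univ_four`);  `hK e` gives `p` with `p + τ • e ∈ K` for `τ ∈ [0,1]`.   `m = ⌈4 p 0⌉`, `t₀ = m / 4 ∈ [p 0, p 0 + 1/4)`,
`x₀ a = p (a+1) + (t₀ - p 0) s a`, `n a = ⌊x₀ a⌋`, `b a = 4 (x₀ a - n a) ∈ [0, 4)`.   For `t ∈ [0,1]` take `τ = ((m + t)/4 - p 0) ν ∈ [0, 1]` (as `(m+t)/4 - p 0 ∈ [0, 1/2]`): `p + τ • e = gluPt ((m+t)/4) (n + (b + t s)/4)` coordinatewise (`Fin.cases`). -/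
theorem glu_wit_exists (K : Set (EuclideanSpace ℝ (Fin 4)))
    (hK : ∀ e : EuclideanSpace ℝ (Fin 4), ‖e‖ = 1 →
      ∃ a : EuclideanSpace ℝ (Fin 4), ∀ t ∈ Set.Icc (0 : ℝ) 1, a + t • e ∈ K)
    (s : Fin 3 → ℝ) (hs : ∀ a, 0 ≤ s a ∧ s a ≤ 1) : ∃ (m : ℤ) (n : Fin 3 → ℤ) (b : Fin 3 → ℝ), GluWit K m n b s := by
  set ν : ℝ := ‖gluPt 1 s‖ with hν
  have hsq : ν ^ 2 = 1 + ∑ a, s a ^ 2 := by
    rw [hν, glu_pt_norm_sq]; norm_num
  have hsum0 : 0 ≤ ∑ a, s a ^ 2 := Finset.sum_nonneg fun a _ => sq_nonneg _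
  have hsum3 : ∑ a, s a ^ 2 ≤ 3 := by
    have : ∀ a ∈ (Finset.univ : Finset (Fin 3)), s a ^ 2 ≤ 1 := by
      intro a _
      have := hs a
      nlinarith [this.1, this.2]
    calc ∑ a, s a ^ 2 ≤ ∑ _a : Fin 3, (1 : ℝ) := Finset.sum_le_sum this
      _ = 3 := by simp
  have hν0 : 0 ≤ ν := norm_nonneg _
  have hνpos : 0 < ν := by
    rcases hν0.lt_or_eq with h | h
    · exact h
    · rw [← h] at hsq; nlinarith
  have hν2 : ν ≤ 2 := by nlinarith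
  obtain ⟨p, hp⟩ := hK (ν⁻¹ • gluPt 1 s) (by
    rw [norm_smul, norm_inv, Real.norm_eq_abs, abs_of_pos hνpos, ← hν]
    exact inv_mul_cancel₀ hνpos.ne')
  set m : ℤ := ⌈4 * p 0⌉ with hm
  have hm1 : 4 * p 0 ≤ (m : ℝ) := Int.le_ceil _
  have hm2 : (m : ℝ) < 4 * p 0 + 1 := Int.ceil_lt_add_one _
  set x0 : Fin 3 → ℝ := fun a => p a.succ + ((m : ℝ) / 4 - p 0) * s a with hx0
  refine ⟨m, fun a => ⌊x0 a⌋, fun a => 4 * (x0 a - ⌊x0 a⌋), ?_, hs, ?_⟩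
  · intro a
    have h1 := Int.floor_le (x0 a)
    have h2 := Int.lt_floor_add_one (x0 a)
    constructor <;> linarith
  · intro t ht
    have hτ : (((m : ℝ) + t) / 4 - p 0) * ν ∈ Set.Icc (0 : ℝ) 1 := by
      have h0 : 0 ≤ ((m : ℝ) + t) / 4 - p 0 := by linarith [ht.1]
      have h1 : ((m : ℝ) + t) / 4 - p 0 ≤ 1 / 2 := by linarith [ht.2]
      constructor
      · positivity
      · nlinarith
    have key := hp _ hτ
    have heq : p + ((((m : ℝ) + t) / 4 - p 0) * ν) • (ν⁻¹ • gluPt 1 s)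
        = gluPt (((m : ℝ) + t) / 4) (fun a => ((⌊x0 a⌋ : ℤ) : ℝ) + (4 * (x0 a - ⌊x0 a⌋) + t * s a) / 4) := by
      rw [smul_smul, mul_assoc, mul_inv_cancel₀ hνpos.ne', mul_one]
      ext i
      refine Fin.cases ?_ (fun a => ?_) i
      · simp only [PiLp.add_apply, PiLp.smul_apply, glu_pt_zero, smul_eq_mul]
        ring
      · simp only [PiLp.add_apply, PiLp.smul_apply, glu_pt_succ, smul_eq_mul, hx0]
        ring
    rw [heq] at key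
    exact key

/-- **LEAF L-252-GLU-C.**  `Set.Icc 0 1 ⊆ ⋃ (m, n), {s | ∃ b, GluWit K m n b s}` (`glu_wit_exists`), countable union (`ℤ × (Fin 3 → ℤ)`), `volume (Icc 0 1) = 1 ≠ 0` (`Real.volume_Icc_pi`), `measure_iUnion_null`.   The set lies in `Icc 0 1`: finite measure. -/
theorem glu_chart (K : Set (EuclideanSpace ℝ (Fin 4)))
    (hK : ∀ e : EuclideanSpace ℝ (Fin 4), ‖e‖ = 1 →
      ∃ a : EuclideanSpace ℝ (Fin 4), ∀ t ∈ Set.Icc (0 : ℝ) 1, a + t • e ∈ K) :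
    ∃ (m : ℤ) (n : Fin 3 → ℤ), volume {s : Fin 3 → ℝ | ∃ b, GluWit K m n b s} ≠ 0 ∧
      volume {s : Fin 3 → ℝ | ∃ b, GluWit K m n b s} ≠ ⊤ := by
  have hvol : volume (Set.Icc (0 : Fin 3 → ℝ) 1) = 1 := by
    rw [Real.volume_Icc_pi]; simp
  have hsub : ∀ (m : ℤ) (n : Fin 3 → ℤ), {s : Fin 3 → ℝ | ∃ b, GluWit K m n b s} ⊆ Set.Icc (0 : Fin 3 → ℝ) 1 := by
    rintro m n s ⟨b, -, hs, -⟩
    exact ⟨fun a => (hs a).1, fun a => (hs a).2⟩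
  have hfin : ∀ (m : ℤ) (n : Fin 3 → ℤ), volume {s : Fin 3 → ℝ | ∃ b, GluWit K m n b s} ≠ ⊤ := by
    intro m n
    have := measure_mono (μ := volume) (hsub m n)
    rw [hvol] at this
    exact ne_top_of_le_ne_top ENNReal.one_ne_top this
  by_contra hcon
  push Not at hcon
  have hnull : ∀ q : ℤ × (Fin 3 → ℤ), volume {s : Fin 3 → ℝ | ∃ b, GluWit K q.1 q.2 b s} = 0 := by
    intro q
    by_contra h
    exact hfin q.1 q.2 (hcon q.1 q.2 h)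
  have hcov : Set.Icc (0 : Fin 3 → ℝ) 1 ⊆ ⋃ q : ℤ × (Fin 3 → ℤ), {s : Fin 3 → ℝ | ∃ b, GluWit K q.1 q.2 b s} := by
    intro s hs
    obtain ⟨m, n, b, h⟩ := glu_wit_exists K hK s (fun a => ⟨hs.1 a, hs.2 a⟩)
    exact Set.mem_iUnion.2 ⟨(m, n), b, h⟩
  have h0 : volume (Set.Icc (0 : Fin 3 → ℝ) 1) = 0 :=
    measure_mono_null hcov (measure_iUnion_null hnull)
  rw [hvol] at h0
  exact one_ne_zero h0

/-- **LEAF L-252-GLU-D.**  `glu_cover` with `r0 = (1/2)^(k0+3)`;  `τ j = 4 x_j 0 - m`, `z j a = 4 (x_j (a+1) - n a)`, `ρ j = 4 r_j`;  `|y i| ≤ ‖y‖` in `EuclideanSpace` (`EuclideanSpace.norm_eq` / `PiLp.norm_apply_le`);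
`(4 r)^d = 4^d r^d ≤ 256 r^d` for `d ≤ 4`. -/
theorem glu_norm_cover (K : Set (EuclideanSpace ℝ (Fin 4))) (d : ℝ) (hd : 0 < d) (hd4 : d ≤ 4)
    (h : dimH K < ENNReal.ofReal d) (m : ℤ) (n : Fin 3 → ℤ) (k0 : ℕ) :
    ∃ (τ : ℕ → ℝ) (z : ℕ → Fin 3 → ℝ) (ρ : ℕ → ℝ), (∀ j, 0 < ρ j ∧ ρ j ≤ (1 / 2 : ℝ) ^ (k0 + 1)) ∧
      (∀ F : Finset ℕ, ∑ j ∈ F, ρ j ^ d ≤ 256) ∧
      ∀ b s, GluWit K m n b s → ∀ t ∈ Set.Icc (0 : ℝ) 1, ∃ j, GluIn b s t (τ j) (z j) (ρ j) := by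
  obtain ⟨x, r, hr, hcov, hsum⟩ := glu_cover K d hd h ((1 / 2 : ℝ) ^ (k0 + 3)) (by positivity)
  refine ⟨fun j => 4 * x j 0 - m, fun j a => 4 * (x j a.succ - n a), fun j => 4 * r j, ?_, ?_, ?_⟩
  · intro j
    refine ⟨by linarith [(hr j).1], ?_⟩
    have h1 := (hr j).2
    have h2 : (1 / 2 : ℝ) ^ (k0 + 3) = (1 / 2 : ℝ) ^ (k0 + 1) / 4 := by
      rw [pow_add, pow_add]; norm_num; ring
    rw [h2] at h1
    linarith
  · intro F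
    have h4 : (4 : ℝ) ^ d ≤ 256 := by
      calc (4 : ℝ) ^ d ≤ (4 : ℝ) ^ (4 : ℝ) := Real.rpow_le_rpow_of_exponent_le (by norm_num) hd4
        _ = 256 := by
          rw [show (4 : ℝ) = ((4 : ℕ) : ℝ) by norm_num, Real.rpow_natCast]; norm_num
    have h40 : (0 : ℝ) ≤ (4 : ℝ) ^ d := by positivity
    have hs0 : 0 ≤ ∑ j ∈ F, r j ^ d :=
      Finset.sum_nonneg fun j _ => Real.rpow_nonneg (hr j).1.le _
    calc ∑ j ∈ F, (4 * r j) ^ d = ∑ j ∈ F, (4 : ℝ) ^ d * r j ^ d := by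
          refine Finset.sum_congr rfl fun j _ => ?_
          rw [Real.mul_rpow (by norm_num) (hr j).1.le]
      _ = (4 : ℝ) ^ d * ∑ j ∈ F, r j ^ d := by rw [Finset.mul_sum]
      _ ≤ 256 * 1 := mul_le_mul h4 (hsum F) hs0 (by norm_num)
      _ = 256 := by norm_num
  · intro b s hw t ht
    have hP := hw.2.2 t ht
    obtain ⟨j, hj⟩ := Set.mem_iUnion.1 (hcov hP)
    rw [Metric.mem_closedBall, dist_eq_norm] at hj
    refine ⟨j, ?_, fun a => ?_⟩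
    · have h0 := (PiLp.norm_apply_le (gluPt (((m : ℝ) + t) / 4) (fun a => (n a : ℝ) + (b a + t * s a) / 4) - x j) 0).trans hj
      rw [PiLp.sub_apply, glu_pt_zero, Real.norm_eq_abs, abs_le] at h0
      rw [abs_le]
      constructor <;> linarith [h0.1, h0.2]
    · have h0 := (PiLp.norm_apply_le (gluPt (((m : ℝ) + t) / 4) (fun a => (n a : ℝ) + (b a + t * s a) / 4) - x j) a.succ).trans hj
      rw [PiLp.sub_apply, glu_pt_succ, Real.norm_eq_abs, abs_le] at h0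
      rw [abs_le]
      constructor <;> linarith [h0.1, h0.2]

end Claimed.Agent.R252
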