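import Claimed.Agent.R252.Glue.Defs

/-!
# Row 252, unit GLUE, file 2 (CONTRACT): `dimH S < d` gives covers by small balls with `∑ r^d ≤ 1`      (architect helper171)
-/

set_option autoImplicit false

namespace Claimed.Agent.R252

open MeasureTheory
open scoped ENNReal NNReal

/-- **LEAF L-252-GLU-A.**  `μH[d] S = 0` (`hausdorffMeasure_of_dimH_lt`, `d` as `NNReal`), `Measure.hausdorffMeasure_apply`: for `r = ofReal r0` the infimum over the countable covers `t` with `ediam (t n) ≤ r` vanishes,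
so there is a cover with `∑' n, ⨆ _ : (t n).Nonempty, ediam (t n) ^ d < 1/2`.   `x n ∈ t n` (arbitrary point if `t n = ∅`),  `r n = max (diam (t n)) (ρ n)`,  `ρ n = min r0 (((1/2)^(n+2))^(1/d))`:
`r n ^ d ≤ diam (t n) ^ d + (1/2)^(n+2)`, finite sums `≤ 1/2 + 1/2`. -/
theorem glu_cover {X : Type} [MetricSpace X] [MeasurableSpace X] [BorelSpace X] [Nonempty X] (S : Set X) (d : ℝ) (hd : 0 < d)
    (h : dimH S < ENNReal.ofReal d) (r0 : ℝ) (hr0 : 0 < r0) :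
    ∃ (x : ℕ → X) (r : ℕ → ℝ), (∀ n, 0 < r n ∧ r n ≤ r0) ∧ S ⊆ ⋃ n, Metric.closedBall (x n) (r n) ∧
      ∀ F : Finset ℕ, ∑ n ∈ F, r n ^ d ≤ 1 := by
  classical
  -- the Hausdorff measure vanishes
  have hμ : μH[d] S = 0 := by
    have h1 : μH[((Real.toNNReal d : ℝ≥0) : ℝ)] S = 0 := hausdorffMeasure_of_dimH_lt h
    rwa [Real.coe_toNNReal d hd.le] at h1
  rw [Measure.hausdorffMeasure_apply] at hμ
  have hr : (0 : ℝ≥0∞) < ENNReal.ofReal r0 := ENNReal.ofReal_pos.2 hr0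
  have h2 : (⨅ (t : ℕ → Set X) (_ : S ⊆ ⋃ n, t n) (_ : ∀ n, Metric.ediam (t n) ≤ ENNReal.ofReal r0),
      ∑' n, ⨆ _ : (t n).Nonempty, Metric.ediam (t n) ^ d) < ENNReal.ofReal (1 / 2) := by
    have h3 : (⨅ (t : ℕ → Set X) (_ : S ⊆ ⋃ n, t n) (_ : ∀ n, Metric.ediam (t n) ≤ ENNReal.ofReal r0),
        ∑' n, ⨆ _ : (t n).Nonempty, Metric.ediam (t n) ^ d) ≤ 0 := by
      rw [← hμ]
      exact le_iSup₂ (f := fun (r : ℝ≥0∞) (_ : 0 < r) => ⨅ (t : ℕ → Set X) (_ : S ⊆ ⋃ n, t n) (_ : ∀ n, Metric.ediam (t n) ≤ r),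
        ∑' n, ⨆ _ : (t n).Nonempty, Metric.ediam (t n) ^ d) (ENNReal.ofReal r0) hr
    exact lt_of_le_of_lt h3 (ENNReal.ofReal_pos.2 (by norm_num))
  obtain ⟨t, ht⟩ := iInf_lt_iff.1 h2
  obtain ⟨hcov, ht⟩ := iInf_lt_iff.1 ht
  obtain ⟨hdiam, hsum⟩ := iInf_lt_iff.1 ht
  have hfin : ∀ n, Metric.ediam (t n) ≠ ⊤ := fun n => ne_top_of_le_ne_top ENNReal.ofReal_ne_top (hdiam n)
  have hdr : ∀ n, Metric.diam (t n) ≤ r0 := fun n => ENNReal.toReal_le_of_le_ofReal hr0.le (hdiam n)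
  have hd0 : ∀ n, 0 ≤ Metric.diam (t n) := fun n => Metric.diam_nonneg
  -- the auxiliary radii
  obtain ⟨ρ, hρ⟩ : ∃ ρ : ℕ → ℝ, ∀ n, ρ n = min r0 ((((1 : ℝ) / 2) ^ (n + 2)) ^ (1 / d)) := ⟨_, fun _ => rfl⟩
  have hρ0 : ∀ n, 0 < ρ n := fun n => by
    rw [hρ]
    exact lt_min hr0 (Real.rpow_pos_of_pos (by positivity) _)
  have hρr : ∀ n, ρ n ≤ r0 := fun n => by
    rw [hρ]
    exact min_le_left _ _
  have hρd : ∀ n, ρ n ^ d ≤ ((1 : ℝ) / 2) ^ (n + 2) := fun n => by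
    have h4 : ρ n ≤ (((1 : ℝ) / 2) ^ (n + 2)) ^ (1 / d) := by
      rw [hρ]
      exact min_le_right _ _
    calc ρ n ^ d ≤ ((((1 : ℝ) / 2) ^ (n + 2)) ^ (1 / d)) ^ d := Real.rpow_le_rpow (hρ0 n).le h4 hd.le
      _ = ((1 : ℝ) / 2) ^ (n + 2) := by
        rw [← Real.rpow_mul (by positivity), one_div_mul_cancel hd.ne', Real.rpow_one]
  refine ⟨fun n => if hn : (t n).Nonempty then hn.some else Classical.arbitrary X, fun n => max (Metric.diam (t n)) (ρ n),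
    fun n => ⟨lt_max_of_lt_right (hρ0 n), max_le (hdr n) (hρr n)⟩, fun y hy => ?_, fun F => ?_⟩
  · obtain ⟨n, hn⟩ := Set.mem_iUnion.1 (hcov hy)
    refine Set.mem_iUnion.2 ⟨n, ?_⟩
    have hne : (t n).Nonempty := ⟨y, hn⟩
    rw [Metric.mem_closedBall]
    simp only [dif_pos hne]
    exact (Metric.dist_le_diam_of_mem' (hfin n) hn hne.some_mem).trans (le_max_left _ _)
  · have h5 : ∀ n, (max (Metric.diam (t n)) (ρ n)) ^ d ≤ Metric.diam (t n) ^ d + ((1 : ℝ) / 2) ^ (n + 2) := by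
      intro n
      rcases le_total (Metric.diam (t n)) (ρ n) with h | h
      · rw [max_eq_right h]
        have := Real.rpow_nonneg (hd0 n) d
        linarith [hρd n]
      · rw [max_eq_left h]
        have : (0 : ℝ) ≤ ((1 : ℝ) / 2) ^ (n + 2) := by positivity
        linarith
    have h6 : ∀ n, ENNReal.ofReal (Metric.diam (t n) ^ d) ≤ ⨆ _ : (t n).Nonempty, Metric.ediam (t n) ^ d := by
      intro n
      by_cases hne : (t n).Nonempty
      · rw [iSup_pos hne, ← ENNReal.ofReal_rpow_of_nonneg (hd0 n) hd.le, Metric.diam, ENNReal.ofReal_toReal (hfin n)]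
      · rw [Set.not_nonempty_iff_eq_empty.1 hne, Metric.diam_empty, Real.zero_rpow hd.ne', ENNReal.ofReal_zero]
        exact zero_le
    have h7 : ∑ n ∈ F, Metric.diam (t n) ^ d ≤ 1 / 2 := by
      have h8 : ENNReal.ofReal (∑ n ∈ F, Metric.diam (t n) ^ d) ≤ ENNReal.ofReal (1 / 2) := by
        rw [ENNReal.ofReal_sum_of_nonneg fun n _ => Real.rpow_nonneg (hd0 n) d]
        exact ((Finset.sum_le_sum fun n _ => h6 n).trans (ENNReal.sum_le_tsum F)).trans hsum.le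
      exact (ENNReal.ofReal_le_ofReal_iff (by norm_num)).1 h8
    have h9 : ∑ n ∈ F, ((1 : ℝ) / 2) ^ (n + 2) ≤ 1 / 2 := by
      have h10 : ∑ n ∈ F, ((1 : ℝ) / 2) ^ n ≤ 2 := by
        exact (summable_geometric_two.sum_le_tsum F fun n _ => by positivity).trans tsum_geometric_two.le
      have h11 : ∑ n ∈ F, ((1 : ℝ) / 2) ^ (n + 2) = (1 / 4) * ∑ n ∈ F, ((1 : ℝ) / 2) ^ n := by
        rw [Finset.mul_sum]
        refine Finset.sum_congr rfl fun n _ => ?_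
        rw [pow_add]
        ring
      rw [h11]
      linarith
    calc ∑ n ∈ F, (max (Metric.diam (t n)) (ρ n)) ^ d
        ≤ ∑ n ∈ F, (Metric.diam (t n) ^ d + ((1 : ℝ) / 2) ^ (n + 2)) := Finset.sum_le_sum fun n _ => h5 n
      _ = ∑ n ∈ F, Metric.diam (t n) ^ d + ∑ n ∈ F, ((1 : ℝ) / 2) ^ (n + 2) := Finset.sum_add_distrib
      _ ≤ 1 := by linarith

end Claimed.Agent.R252
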