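import Claimed.Agent.R252.Glue.Defs

/-!
# Row 252, unit GLUE, file 6 (CONTRACT): discretisation at the scale `2^{-k}`      (architect helper171)
-/

set_option autoImplicit false

namespace Claimed.Agent.R252

open MeasureTheory
open scoped ENNReal NNReal

/-- two reals whose floors differ by at least two differ by more than one -/
theorem glu_grid_sep (x y : ℝ) (h : 2 ≤ |⌊x⌋ - ⌊y⌋|) : 1 < |x - y| := by
  have a1 := Int.floor_le x
  have a2 := Int.lt_floor_add_one x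
  have b1 := Int.floor_le y
  have b2 := Int.lt_floor_add_one y
  rcases le_abs.1 h with h | h
  · have : (2 : ℝ) ≤ (⌊x⌋ : ℝ) - (⌊y⌋ : ℝ) := by exact_mod_cast h
    exact lt_of_lt_of_le (by linarith) (le_abs_self _)
  · have : (2 : ℝ) ≤ -((⌊x⌋ : ℝ) - (⌊y⌋ : ℝ)) := by exact_mod_cast h
    exact lt_of_lt_of_le (by linarith) (neg_le_abs _)

/-- the volume of a cell of the grid -/
theorem glu_grid_vol (k : ℕ) (c : Fin 3 → ℤ) :
    volume (Set.Icc (fun a => (c a : ℝ) / 2 ^ k) (fun a => ((c a : ℝ) + 1) / 2 ^ k)) = ENNReal.ofReal (1 / 2 ^ (3 * k)) := by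
  rw [Real.volume_Icc_pi]
  have : ∀ a : Fin 3, ((c a : ℝ) + 1) / 2 ^ k - (c a : ℝ) / 2 ^ k = 1 / 2 ^ k := fun a => by ring
  simp only [this, Finset.prod_const, Finset.card_univ, Fintype.card_fin]
  rw [← ENNReal.ofReal_pow (by positivity)]
  congr 1
  rw [div_pow, one_pow, ← pow_mul, mul_comm]

/-- **LEAF L-252-GLU-E1: separated slopes.**  `c s = fun a => ⌊s a * 2^k⌋ ∈ piFinset (Icc 0 2^k)`.   `G` = the cells `c` met by `S` (finite);  `S ⊆ ⋃_{c ∈ G} Icc (c / 2^k) ((c + 1) / 2^k)`: `volume S ≤ |G| 2^{-3k}` (`measure_biUnion_finset_le`, `Real.volume_Icc_pi`).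
Parity `c ↦ fun a => c a % 2` has `8` values: a class `G'` with `|G| ≤ 8 |G'|` (`Finset.exists_le_card_fiber_of_mul_le_card_of_maps_to` or `Finset.card_eq_sum_card_fiberwise`).   One point of `S` in each cell of `G'`;  two cells of the same parity differ by `≥ 2` in a coordinate:
there the points differ by more than `2^{-k}`. -/
theorem glu_grid (S : Set (Fin 3 → ℝ)) (hS : ∀ s ∈ S, ∀ a, 0 ≤ s a ∧ s a ≤ 1) (k : ℕ) :
    ∃ F : Finset (Fin 3 → ℝ), (∀ s ∈ F, s ∈ S) ∧ (∀ s ∈ F, ∀ s' ∈ F, s ≠ s' → ∃ a, 1 / (2 : ℝ) ^ k < |s a - s' a|) ∧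
      volume S ≤ ENNReal.ofReal (8 * F.card / 2 ^ (3 * k)) := by
  classical
  have hN0 : (0 : ℝ) < 2 ^ k := by positivity
  obtain ⟨cl, hcl⟩ : ∃ cl : (Fin 3 → ℝ) → Fin 3 → ℤ, cl = fun s a => ⌊s a * 2 ^ k⌋ := ⟨_, rfl⟩
  obtain ⟨G, hG⟩ : ∃ G : Finset (Fin 3 → ℤ), G = (Fintype.piFinset fun _ : Fin 3 => Finset.Icc (0 : ℤ) (2 ^ k)).filter fun c => ∃ s ∈ S, cl s = c := ⟨_, rfl⟩
  have hmemG : ∀ s ∈ S, cl s ∈ G := by
    intro s hs
    rw [hG, Finset.mem_filter, Fintype.mem_piFinset]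
    refine ⟨fun a => ?_, s, hs, rfl⟩
    rw [Finset.mem_Icc, hcl]
    constructor
    · exact Int.floor_nonneg.2 (mul_nonneg (hS s hs a).1 hN0.le)
    · have h1 : s a * 2 ^ k ≤ ((2 ^ k : ℤ) : ℝ) := by
        push_cast
        calc s a * 2 ^ k ≤ 1 * 2 ^ k := mul_le_mul_of_nonneg_right (hS s hs a).2 hN0.le
          _ = 2 ^ k := one_mul _
      have h2 := Int.floor_le_floor h1
      rwa [Int.floor_intCast] at h2
  -- the covering
  have hcov : S ⊆ ⋃ c ∈ G, Set.Icc (fun a => (c a : ℝ) / 2 ^ k) (fun a => ((c a : ℝ) + 1) / 2 ^ k) := by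
    intro s hs
    rw [Set.mem_iUnion₂]
    refine ⟨cl s, hmemG s hs, fun a => ?_, fun a => ?_⟩
    · show ((cl s a : ℤ) : ℝ) / 2 ^ k ≤ s a
      rw [div_le_iff₀ hN0, hcl]
      exact Int.floor_le _
    · show s a ≤ (((cl s a : ℤ) : ℝ) + 1) / 2 ^ k
      rw [le_div_iff₀ hN0, hcl]
      exact (Int.lt_floor_add_one _).le
  have hvol : volume S ≤ ENNReal.ofReal (G.card / 2 ^ (3 * k)) := by
    calc volume S ≤ volume (⋃ c ∈ G, Set.Icc (fun a => (c a : ℝ) / 2 ^ k) (fun a => ((c a : ℝ) + 1) / 2 ^ k)) := measure_mono hcov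
      _ ≤ ∑ c ∈ G, volume (Set.Icc (fun a => (c a : ℝ) / 2 ^ k) (fun a => ((c a : ℝ) + 1) / 2 ^ k)) := measure_biUnion_finset_le _ _
      _ = ENNReal.ofReal (G.card / 2 ^ (3 * k)) := by
        simp only [glu_grid_vol, Finset.sum_const, nsmul_eq_mul]
        rw [← ENNReal.ofReal_natCast, ← ENNReal.ofReal_mul (by positivity)]
        congr 1
        ring
  -- parity classes
  obtain ⟨par, hpar⟩ : ∃ par : (Fin 3 → ℤ) → Fin 3 → ZMod 2, par = fun c a => ((c a : ℤ) : ZMod 2) := ⟨_, rfl⟩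
  obtain ⟨y, -, hy⟩ := Finset.exists_le_card_fiber_of_nsmul_le_card_of_maps_to (s := G) (t := (Finset.univ : Finset (Fin 3 → ZMod 2)))
    (f := par) (b := (G.card : ℝ) / 8) (fun _ _ => Finset.mem_univ _) Finset.univ_nonempty (by
      have : (Finset.univ : Finset (Fin 3 → ZMod 2)).card = 8 := by
        rw [Finset.card_univ, Fintype.card_fun, ZMod.card, Fintype.card_fin]
        norm_num
      rw [this]
      simp only [nsmul_eq_mul]
      push_cast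
      linarith)
  obtain ⟨G', hG'⟩ : ∃ G' : Finset (Fin 3 → ℤ), G' = G.filter fun c => par c = y := ⟨_, rfl⟩
  rw [← hG'] at hy
  -- one point in each cell
  have hch : ∀ c : Fin 3 → ℤ, ∃ s : Fin 3 → ℝ, c ∈ G → s ∈ S ∧ cl s = c := by
    intro c
    by_cases hc : c ∈ G
    · rw [hG, Finset.mem_filter] at hc
      obtain ⟨s, h1, h2⟩ := hc.2
      exact ⟨s, fun _ => ⟨h1, h2⟩⟩
    · exact ⟨0, fun h => (hc h).elim⟩
  choose pt hpt using hch
  have hG'G : ∀ c ∈ G', c ∈ G := fun c hc => by rw [hG'] at hc; exact (Finset.mem_filter.1 hc).1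
  have hinj : Set.InjOn pt (G' : Set (Fin 3 → ℤ)) := by
    intro c hc c' hc' h
    rw [← (hpt c (hG'G c hc)).2, ← (hpt c' (hG'G c' hc')).2, h]
  refine ⟨G'.image pt, ?_, ?_, ?_⟩
  · intro s hs
    obtain ⟨c, hc, rfl⟩ := Finset.mem_image.1 hs
    exact (hpt c (hG'G c hc)).1
  · intro s hs s' hs' hne
    obtain ⟨c, hc, rfl⟩ := Finset.mem_image.1 hs
    obtain ⟨c', hc', rfl⟩ := Finset.mem_image.1 hs'
    have hcc : c ≠ c' := fun h => hne (by rw [h])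
    obtain ⟨a, ha⟩ := Function.ne_iff.1 hcc
    refine ⟨a, ?_⟩
    have p1 : par c = y := by rw [hG'] at hc; exact (Finset.mem_filter.1 hc).2
    have p2 : par c' = y := by rw [hG'] at hc'; exact (Finset.mem_filter.1 hc').2
    have p3 : ((c a : ℤ) : ZMod 2) = ((c' a : ℤ) : ZMod 2) := by
      have := congrFun (p1.trans p2.symm) a
      rw [hpar] at this
      exact this
    rw [ZMod.intCast_eq_intCast_iff_dvd_sub] at p3
    have p4 : 2 ≤ |c a - c' a| := by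
      obtain ⟨q, hq⟩ := p3
      push_cast at hq
      rcases abs_cases (c a - c' a) with ⟨h1, _⟩ | ⟨h1, _⟩ <;> omega
    have e1 : c a = ⌊pt c a * 2 ^ k⌋ := by
      have := congrFun (hpt c (hG'G c hc)).2 a
      rw [hcl] at this
      exact this.symm
    have e2 : c' a = ⌊pt c' a * 2 ^ k⌋ := by
      have := congrFun (hpt c' (hG'G c' hc')).2 a
      rw [hcl] at this
      exact this.symm
    rw [e1, e2] at p4
    have p5 := glu_grid_sep _ _ p4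
    rw [← sub_mul, abs_mul, abs_of_pos hN0] at p5
    rwa [div_lt_iff₀ hN0]
  · rw [Finset.card_image_of_injOn hinj]
    refine hvol.trans (ENNReal.ofReal_le_ofReal ?_)
    apply div_le_div_of_nonneg_right _ (by positivity)
    linarith

/-- **LEAF L-252-GLU-E2: marked time bins.**  `J` = the `j < 2^k` whose bin `[j 2^{-k}, (j+1) 2^{-k})` meets `T`;  `T ⊆ {1} ∪ ⋃_{j ∈ J} Ico …`. -/
theorem glu_marks (T : Set ℝ) (hT : T ⊆ Set.Icc (0 : ℝ) 1) (k : ℕ) :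
    ∃ J : Finset ℕ, J ⊆ Finset.range (2 ^ k) ∧ (∀ j ∈ J, ∃ t ∈ T, (j : ℝ) / 2 ^ k ≤ t ∧ t < ((j : ℝ) + 1) / 2 ^ k) ∧
      volume T ≤ ENNReal.ofReal (J.card / 2 ^ k) := by
  classical
  have h2k : (0 : ℝ) < 2 ^ k := by positivity
  set J : Finset ℕ := (Finset.range (2 ^ k)).filter
    (fun j => ∃ t ∈ T, (j : ℝ) / 2 ^ k ≤ t ∧ t < ((j : ℝ) + 1) / 2 ^ k) with hJ
  refine ⟨J, Finset.filter_subset _ _, fun j hj => (Finset.mem_filter.1 hj).2, ?_⟩
  have hsub : T ⊆ {(1 : ℝ)} ∪ ⋃ j ∈ J, Set.Ico ((j : ℝ) / 2 ^ k) (((j : ℝ) + 1) / 2 ^ k) := by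
    intro t ht
    obtain ⟨t0, t1⟩ := hT ht
    rcases eq_or_lt_of_le t1 with h1 | h1
    · left; exact h1
    · right
      have hn : 0 ≤ t * 2 ^ k := by positivity
      set j : ℕ := ⌊t * 2 ^ k⌋₊ with hj
      have a1 : (j : ℝ) ≤ t * 2 ^ k := Nat.floor_le hn
      have a2 : t * 2 ^ k < (j : ℝ) + 1 := Nat.lt_floor_add_one _
      have b1 : (j : ℝ) / 2 ^ k ≤ t := by rwa [div_le_iff₀ h2k]
      have b2 : t < ((j : ℝ) + 1) / 2 ^ k := by rwa [lt_div_iff₀ h2k]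
      have hjlt : j < 2 ^ k := by
        have : (j : ℝ) < 2 ^ k := by nlinarith
        exact_mod_cast this
      simp only [Set.mem_iUnion]
      exact ⟨j, Finset.mem_filter.2 ⟨Finset.mem_range.2 hjlt, t, ht, b1, b2⟩, b1, b2⟩
  calc volume T ≤ volume ({(1 : ℝ)} ∪ ⋃ j ∈ J, Set.Ico ((j : ℝ) / 2 ^ k) (((j : ℝ) + 1) / 2 ^ k)) :=
        measure_mono hsub
    _ ≤ volume {(1 : ℝ)} + volume (⋃ j ∈ J, Set.Ico ((j : ℝ) / 2 ^ k) (((j : ℝ) + 1) / 2 ^ k)) :=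
        measure_union_le _ _
    _ ≤ 0 + ∑ j ∈ J, volume (Set.Ico ((j : ℝ) / 2 ^ k) (((j : ℝ) + 1) / 2 ^ k)) := by
        refine add_le_add (by simp) (measure_biUnion_finset_le _ _)
    _ = ∑ j ∈ J, ENNReal.ofReal (1 / 2 ^ k) := by
        rw [zero_add]
        refine Finset.sum_congr rfl fun j _ => ?_
        rw [Real.volume_Ico]
        congr 1
        ring
    _ = ENNReal.ofReal (J.card / 2 ^ k) := by
        rw [Finset.sum_const, nsmul_eq_mul, ← ENNReal.ofReal_natCast, ← ENNReal.ofReal_mul (Nat.cast_nonneg _)]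
        congr 1
        ring

/-- floors of two reals: `x - 2 < y ≤ x + 1` -/
theorem glu_cells_floor (x y : ℝ) (h1 : x - 2 < y) (h2 : y ≤ x + 1) : -2 ≤ ⌊y⌋ - ⌊x⌋ ∧ ⌊y⌋ - ⌊x⌋ ≤ 2 := by
  have a1 := Int.floor_le x
  have a2 := Int.lt_floor_add_one x
  have b1 := Int.floor_le y
  have b2 := Int.lt_floor_add_one y
  constructor
  · have : ((⌊x⌋ : ℤ) : ℝ) - 3 < ((⌊y⌋ : ℤ) : ℝ) := by linarith
    have : (⌊x⌋ : ℤ) - 3 < ⌊y⌋ := by exact_mod_cast this
    omega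
  · have : ((⌊y⌋ : ℤ) : ℝ) < ((⌊x⌋ : ℤ) : ℝ) + 2 := by linarith
    have : (⌊y⌋ : ℤ) < ⌊x⌋ + 2 := by exact_mod_cast this
    omega

open Classical in
/-- **LEAF L-252-GLU-E3: the visited cells.**  If `j δ ≤ t < (j+1) δ`, `δ = 2^{-k}`, and the point at the time `t` lies in the box `l` of half side `≤ δ`, then `|j - τ_l / δ| ≤ 2` and `|(b + j δ s)_a / δ - z_l a / δ| ≤ 2` (`0 ≤ s a ≤ 1`), so
`gluCell k b s j = (⌊τ_l / δ⌋ + o₀, ⌊z_l a / δ⌋ + o a)` with offsets in `{-2, …, 2}`:  the visited cells inject into `Nk × {-2..2}⁴` (or are the image of it): `5⁴ = 625`. -/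
theorem glu_cells (k : ℕ) (τ : ℕ → ℝ) (z : ℕ → Fin 3 → ℝ) (Nk : Finset ℕ) {ι : Type} [Fintype ι] (b s : ι → Fin 3 → ℝ)
    (J : ι → Finset ℕ) (hs : ∀ i a, 0 ≤ s i a ∧ s i a ≤ 1)
    (h : ∀ i, ∀ j ∈ J i, ∃ t : ℝ, (j : ℝ) / 2 ^ k ≤ t ∧ t < ((j : ℝ) + 1) / 2 ^ k ∧
      ∃ l ∈ Nk, GluIn (b i) (s i) t (τ l) (z l) (1 / 2 ^ k)) :
    (Finset.univ.biUnion fun i => (J i).image (gluCell k (b i) (s i))).card ≤ 625 * Nk.card := by
  obtain ⟨N, hN⟩ : ∃ N : ℝ, N = 2 ^ k := ⟨_, rfl⟩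
  have hN0 : 0 < N := by rw [hN]; positivity
  obtain ⟨Φ, hΦ⟩ : ∃ Φ : ℕ × (ℤ × (Fin 3 → ℤ)) → ℕ × (Fin 3 → ℤ),
      Φ = fun p => ((⌊τ p.1 * N⌋ + p.2.1).toNat, fun a => ⌊z p.1 a * N⌋ + p.2.2 a) := ⟨_, rfl⟩
  have hsub : (Finset.univ.biUnion fun i => (J i).image (gluCell k (b i) (s i)))
      ⊆ (Nk ×ˢ (Finset.Icc (-2 : ℤ) 2 ×ˢ Fintype.piFinset fun _ : Fin 3 => Finset.Icc (-2 : ℤ) 2)).image Φ := by
    intro c hc
    rw [Finset.mem_biUnion] at hc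
    obtain ⟨i, -, hc⟩ := hc
    rw [Finset.mem_image] at hc
    obtain ⟨j, hj, rfl⟩ := hc
    obtain ⟨t, t1, t2, l, hl, g1, g2⟩ := h i j hj
    rw [← hN] at t1 t2 g1 g2
    rw [div_le_iff₀ hN0] at t1
    rw [lt_div_iff₀ hN0] at t2
    have hN1 : 1 / N * N = 1 := by field_simp
    have g1' : |t * N - τ l * N| ≤ 1 := by
      rw [← sub_mul, abs_mul, abs_of_pos hN0, ← hN1]
      exact mul_le_mul_of_nonneg_right g1 hN0.le
    rw [abs_le] at g1'
    have f0 := glu_cells_floor (τ l * N) (j : ℝ) (by linarith) (by linarith)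
    rw [Int.floor_natCast] at f0
    have fa : ∀ a, -2 ≤ ⌊(b i a + (j : ℝ) / N * s i a) * N⌋ - ⌊z l a * N⌋ ∧ ⌊(b i a + (j : ℝ) / N * s i a) * N⌋ - ⌊z l a * N⌋ ≤ 2 := by
      intro a
      have g2' : |(b i a + t * s i a) * N - z l a * N| ≤ 1 := by
        rw [← sub_mul, abs_mul, abs_of_pos hN0, ← hN1]
        exact mul_le_mul_of_nonneg_right (g2 a) hN0.le
      rw [abs_le] at g2'
      have e : (b i a + (j : ℝ) / N * s i a) * N = (b i a + t * s i a) * N - (t * N - j) * s i a := by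
        field_simp
        ring
      have p1 : 0 ≤ (t * N - j) * s i a := mul_nonneg (by linarith) (hs i a).1
      have p2 : (t * N - j) * s i a < 1 := by
        calc (t * N - j) * s i a ≤ (t * N - j) * 1 := mul_le_mul_of_nonneg_left (hs i a).2 (by linarith)
          _ < 1 := by linarith
      exact glu_cells_floor _ _ (by rw [e]; linarith) (by rw [e]; linarith)
    rw [Finset.mem_image]
    refine ⟨(l, ((j : ℤ) - ⌊τ l * N⌋, fun a => ⌊(b i a + (j : ℝ) / N * s i a) * N⌋ - ⌊z l a * N⌋)), ?_, ?_⟩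
    · rw [Finset.mem_product, Finset.mem_product, Finset.mem_Icc, Fintype.mem_piFinset]
      exact ⟨hl, f0, fun a => Finset.mem_Icc.2 (fa a)⟩
    · rw [hΦ]
      unfold gluCell
      rw [← hN]
      refine Prod.ext ?_ ?_
      · simp
      · funext a
        simp
  calc (Finset.univ.biUnion fun i => (J i).image (gluCell k (b i) (s i))).card
      ≤ ((Nk ×ˢ (Finset.Icc (-2 : ℤ) 2 ×ˢ Fintype.piFinset fun _ : Fin 3 => Finset.Icc (-2 : ℤ) 2)).image Φ).card := Finset.card_le_card hsub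
    _ ≤ (Nk ×ˢ (Finset.Icc (-2 : ℤ) 2 ×ˢ Fintype.piFinset fun _ : Fin 3 => Finset.Icc (-2 : ℤ) 2)).card := Finset.card_image_le
    _ = 625 * Nk.card := by
      rw [Finset.card_product, Finset.card_product, Fintype.card_piFinset]
      simp
      ring

/-- **LEAF L-252-GLU-E4: the number of boxes of a class.**  A finite set `F` of indices with `(1/2)^(k+1) < ρ j` has `|F| (1/2)^((k+1) d) ≤ ∑_F ρ^d ≤ A`;  so the set is finite (`Set.Infinite.exists_subset_card_eq`). -/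
theorem glu_class_card (ρ : ℕ → ℝ) (d A : ℝ) (hd : 0 < d) (hsum : ∀ F : Finset ℕ, ∑ j ∈ F, ρ j ^ d ≤ A) (k : ℕ) :
    ∃ Nk : Finset ℕ, (∀ j, j ∈ Nk ↔ ((1 / 2 : ℝ) ^ (k + 1) < ρ j ∧ ρ j ≤ (1 / 2 : ℝ) ^ k)) ∧
      (Nk.card : ℝ) ≤ A * (2 : ℝ) ^ (d * ((k : ℝ) + 1)) := by
  classical
  set c : ℝ := ((1 / 2 : ℝ) ^ (k + 1)) ^ d with hc
  have hc0 : 0 < c := by positivity
  have key : ∀ F : Finset ℕ, (∀ j ∈ F, (1 / 2 : ℝ) ^ (k + 1) < ρ j) → (F.card : ℝ) * c ≤ A := by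
    intro F hF
    calc (F.card : ℝ) * c = ∑ j ∈ F, c := by rw [Finset.sum_const, nsmul_eq_mul]
      _ ≤ ∑ j ∈ F, ρ j ^ d :=
          Finset.sum_le_sum fun j hj => Real.rpow_le_rpow (by positivity) (hF j hj).le hd.le
      _ ≤ A := hsum F
  have hfin : {j | (1 / 2 : ℝ) ^ (k + 1) < ρ j ∧ ρ j ≤ (1 / 2 : ℝ) ^ k}.Finite := by
    by_contra hinf
    obtain ⟨n, hn⟩ := exists_nat_gt (A / c)
    obtain ⟨F, hF1, hF2⟩ := Set.Infinite.exists_subset_card_eq hinf n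
    have h1 := key F (fun j hj => (hF1 hj).1)
    rw [hF2] at h1
    rw [div_lt_iff₀ hc0] at hn
    linarith
  refine ⟨hfin.toFinset, fun j => by simp, ?_⟩
  have h1 := key hfin.toFinset (fun j hj => ((hfin.mem_toFinset).1 hj).1)
  have e : c * (2 : ℝ) ^ (d * ((k : ℝ) + 1)) = 1 := by
    have e1 : (2 : ℝ) ^ (d * ((k : ℝ) + 1)) = ((2 : ℝ) ^ (k + 1)) ^ d := by
      rw [mul_comm, Real.rpow_mul (by norm_num)]
      congr 1
      rw [← Real.rpow_natCast]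
      push_cast
      rfl
    rw [e1, hc, ← Real.mul_rpow (by positivity) (by positivity), ← mul_pow]
    norm_num
  have hp : (0 : ℝ) < (2 : ℝ) ^ (d * ((k : ℝ) + 1)) := Real.rpow_pos_of_pos (by norm_num) _
  calc (hfin.toFinset.card : ℝ) = hfin.toFinset.card * (c * (2 : ℝ) ^ (d * ((k : ℝ) + 1))) := by
        rw [e, mul_one]
    _ = hfin.toFinset.card * c * (2 : ℝ) ^ (d * ((k : ℝ) + 1)) := by ring
    _ ≤ _ := mul_le_mul_of_nonneg_right h1 hp.le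

end Claimed.Agent.R252
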