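import Claimed.Agent.R252.Glue.Defs

/-!
# Row 252, unit GLUE, file 3 (CONTRACT): the pigeonhole over the scales, for outer measures      (architect helper171)
-/

set_option autoImplicit false

namespace Claimed.Agent.R252

open MeasureTheory
open scoped ENNReal NNReal

theorem glu_w_pos (k : ℕ) : 0 < gluW k := by
  unfold gluW
  positivity

/-- `12 k² w_k ≥ 1` for `k ≥ 1` -/
theorem glu_w_ge {k : ℕ} (hk : 1 ≤ k) : 1 ≤ 12 * (k : ℝ) ^ 2 * gluW k := by
  have h1 : (1 : ℝ) ≤ k := by exact_mod_cast hk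
  unfold gluW
  rw [mul_one_div, le_div_iff₀ (by positivity)]
  nlinarith

/-- **LEAF L-252-GLU-P1.**  `∑_{k<n} w_k = (1 - 1/(n+1)) / 2` by induction. -/
theorem glu_sum_w (n : ℕ) : ∑ k ∈ Finset.range n, gluW k ≤ 1 / 2 := by
  have h : ∀ n : ℕ, ∑ k ∈ Finset.range n, gluW k = (1 - 1 / ((n : ℝ) + 1)) / 2 := by
    intro n
    induction n with
    | zero => simp
    | succ n ih =>
      rw [Finset.sum_range_succ, ih]
      unfold gluW
      push_cast
      field_simp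
      ring
  rw [h]
  have : 0 ≤ 1 / ((n : ℝ) + 1) := by positivity
  linarith

/-- **LEAF L-252-GLU-P2.**  No measurability.  Otherwise `μ A ≤ ∑' μ (B k) ≤ μ A * ∑' ofReal (w k) ≤ μ A / 2` (`measure_iUnion_le`, `ENNReal.tsum_mul_left`, `ENNReal.tsum_le_of_sum_range_le`, `ENNReal.ofReal_sum_of_nonneg`, `glu_sum_w`). -/
theorem glu_pigeon {α : Type} [MeasurableSpace α] (μ : Measure α) (A : Set α) (B : ℕ → Set α) (hAB : A ⊆ ⋃ k, B k)
    (h0 : μ A ≠ 0) (hT : μ A ≠ ⊤) : ∃ k, μ A * ENNReal.ofReal (gluW k) ≤ μ (B k) := by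
  by_contra hcon
  push Not at hcon
  have h1 : ∑' k, ENNReal.ofReal (gluW k) ≤ ENNReal.ofReal (1 / 2) := by
    refine ENNReal.tsum_le_of_sum_range_le fun n => ?_
    rw [← ENNReal.ofReal_sum_of_nonneg fun k _ => (glu_w_pos k).le]
    exact ENNReal.ofReal_le_ofReal (glu_sum_w n)
  have h2 : ENNReal.ofReal (1 / 2) = 2⁻¹ := by
    rw [one_div, ENNReal.ofReal_inv_of_pos (by norm_num), ENNReal.ofReal_ofNat]
  have h3 : μ A ≤ μ A / 2 :=
    calc μ A ≤ μ (⋃ k, B k) := measure_mono hAB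
      _ ≤ ∑' k, μ (B k) := measure_iUnion_le B
      _ ≤ ∑' k, μ A * ENNReal.ofReal (gluW k) := ENNReal.tsum_le_tsum fun k => (hcon k).le
      _ = μ A * ∑' k, ENNReal.ofReal (gluW k) := ENNReal.tsum_mul_left
      _ ≤ μ A * 2⁻¹ := by rw [← h2]; gcongr
      _ = μ A / 2 := (div_eq_mul_inv _ _).symm
  exact absurd (ENNReal.half_lt_self h0 hT) (not_lt.2 h3)

end Claimed.Agent.R252
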