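import Claimed.Agent.R252.Glue.Pigeon

/-!
# Row 252, unit GLUE, file 5: one scale carries both the time fraction and the slopes      (architect helper171)
-/

set_option autoImplicit false

namespace Claimed.Agent.R252

open MeasureTheory
open scoped ENNReal NNReal

/-- the times of `[0,1]` at which the line `(b, s)` lies in a box of the class `k` (`2^{-k-1} < ρ j ≤ 2^{-k}`) -/
def gluT (τ : ℕ → ℝ) (z : ℕ → Fin 3 → ℝ) (ρ : ℕ → ℝ) (k : ℕ) (b s : Fin 3 → ℝ) : Set ℝ :=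
  {t | t ∈ Set.Icc (0 : ℝ) 1 ∧ ∃ j, (1 / 2 : ℝ) ^ (k + 1) < ρ j ∧ ρ j ≤ (1 / 2 : ℝ) ^ k ∧ GluIn b s t (τ j) (z j) (ρ j)}

theorem gluT_eqns_cite : True := by
  have := @gluT.eq_1
  trivial

/-- **LEAF L-252-GLU-S.**  Every `ρ j ∈ (0, 1]` has a class (`exists_nat_pow_near_of_lt_one`), so `Icc 0 1 ⊆ ⋃ k, gluT … k b s` for a witness;  `glu_pigeon` (Lebesgue measure on `ℝ`, `A = Icc 0 1`) gives `k` with `ofReal (w k) ≤ volume (gluT … k b s)`.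
Hence `{s | ∃ b, Wit b s} ⊆ ⋃ k, {s | ∃ b, Wit b s ∧ ofReal (w k) ≤ volume (gluT … k b s)}`;  `glu_pigeon` again.   The set found is not null, so non-empty, so `gluT … k b s` is not null, so non-empty: there is `j` with
`(1/2)^(k+1) < ρ j ≤ (1/2)^(k0+1)`, i.e. `k0 < k` (`pow_lt_pow_iff_right_of_lt_one₀` or by contradiction with `pow_le_pow_of_le_one`). -/
theorem glu_scale (Wit : (Fin 3 → ℝ) → (Fin 3 → ℝ) → Prop) (τ : ℕ → ℝ) (z : ℕ → Fin 3 → ℝ) (ρ : ℕ → ℝ) (k0 : ℕ)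
    (hρ : ∀ j, 0 < ρ j ∧ ρ j ≤ (1 / 2 : ℝ) ^ (k0 + 1))
    (hcov : ∀ b s, Wit b s → ∀ t ∈ Set.Icc (0 : ℝ) 1, ∃ j, GluIn b s t (τ j) (z j) (ρ j))
    (h0 : volume {s : Fin 3 → ℝ | ∃ b, Wit b s} ≠ 0) (hT : volume {s : Fin 3 → ℝ | ∃ b, Wit b s} ≠ ⊤) :
    ∃ k, k0 < k ∧ volume {s : Fin 3 → ℝ | ∃ b, Wit b s} * ENNReal.ofReal (gluW k)
      ≤ volume {s : Fin 3 → ℝ | ∃ b, Wit b s ∧ ENNReal.ofReal (gluW k) ≤ volume (gluT τ z ρ k b s)} := by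
  have hline : ∀ b s, Wit b s → ∃ k, ENNReal.ofReal (gluW k) ≤ volume (gluT τ z ρ k b s) := by
    intro b s hW
    have hsub : Set.Icc (0 : ℝ) 1 ⊆ ⋃ k, gluT τ z ρ k b s := by
      intro t ht
      obtain ⟨j, hj⟩ := hcov b s hW t ht
      have h1 : ρ j ≤ 1 := (hρ j).2.trans (pow_le_one₀ (by norm_num) (by norm_num))
      obtain ⟨n, hn1, hn2⟩ := exists_nat_pow_near_of_lt_one (hρ j).1 h1 (y := (1 / 2 : ℝ)) (by norm_num)
        (by norm_num)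
      exact Set.mem_iUnion.2 ⟨n, ht, j, hn1, hn2, hj⟩
    have hv : volume (Set.Icc (0 : ℝ) 1) = 1 := by simp
    obtain ⟨k, hk⟩ := glu_pigeon volume (Set.Icc (0 : ℝ) 1) (fun k => gluT τ z ρ k b s) hsub
      (by rw [hv]; exact one_ne_zero) (by rw [hv]; exact ENNReal.one_ne_top)
    rw [hv, one_mul] at hk
    exact ⟨k, hk⟩
  have hsub : {s : Fin 3 → ℝ | ∃ b, Wit b s} ⊆
      ⋃ k, {s : Fin 3 → ℝ | ∃ b, Wit b s ∧ ENNReal.ofReal (gluW k) ≤ volume (gluT τ z ρ k b s)} := by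
    rintro s ⟨b, hb⟩
    obtain ⟨k, hk⟩ := hline b s hb
    exact Set.mem_iUnion.2 ⟨k, b, hb, hk⟩
  obtain ⟨k, hk⟩ := glu_pigeon volume _ _ hsub h0 hT
  refine ⟨k, ?_, hk⟩
  have hw : 0 < ENNReal.ofReal (gluW k) := ENNReal.ofReal_pos.2 (glu_w_pos k)
  have hpos : 0 < volume {s : Fin 3 → ℝ | ∃ b, Wit b s ∧ ENNReal.ofReal (gluW k) ≤ volume (gluT τ z ρ k b s)} :=
    lt_of_lt_of_le (ENNReal.mul_pos h0 hw.ne') hk
  obtain ⟨s, b, -, hb⟩ := nonempty_of_measure_ne_zero hpos.ne'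
  obtain ⟨t, -, j, hj1, -, -⟩ := nonempty_of_measure_ne_zero (lt_of_lt_of_le hw hb).ne'
  by_contra hc
  have h1 : (1 / 2 : ℝ) ^ (k0 + 1) ≤ (1 / 2 : ℝ) ^ (k + 1) :=
    pow_le_pow_of_le_one (by norm_num) (by norm_num) (by omega)
  have h2 := (hρ j).2
  linarith

end Claimed.Agent.R252
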