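import Claimed.Agent.R252.Glue.Chart
import Claimed.Agent.R252.Glue.Scale
import Claimed.Agent.R252.Glue.Disc

/-!
# Row 252, unit GLUE, file 7: the selection from `K` and the reduction of the frozen statement      (architect helper171)

* `glu_select` : a Kakeya set with `dimH K < 4` produces `σ ∈ (0,1)`, `C` and bad configurations `GluBad σ C k` at arbitrarily small scales.
* `glu_top`    : `GluKak4 → ∀ K` Kakeya, `dimH K = 4`   (the type of `S0492.result`).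
-/

set_option autoImplicit false

namespace Claimed.Agent.R252

open MeasureTheory
open scoped ENNReal NNReal

theorem glu_exists_dim {x : ℝ≥0∞} (h : x < 4) : ∃ d : ℝ, 3 < d ∧ d < 4 ∧ x < ENNReal.ofReal d := by
  obtain ⟨q, h1, h2⟩ := exists_between h
  have hq : q ≠ ⊤ := ne_top_of_lt h2
  refine ⟨max q.toReal (7 / 2), lt_of_lt_of_le (by norm_num) (le_max_right _ _), max_lt ?_ (by norm_num), ?_⟩
  · have := (ENNReal.toReal_lt_toReal hq (by norm_num)).2 h2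
    simpa using this
  · refine lt_of_lt_of_le h1 ?_
    calc q = ENNReal.ofReal q.toReal := (ENNReal.ofReal_toReal hq).symm
      _ ≤ _ := ENNReal.ofReal_le_ofReal (le_max_left _ _)

theorem glu_select (K : Set (EuclideanSpace ℝ (Fin 4)))
    (hK : ∀ e : EuclideanSpace ℝ (Fin 4), ‖e‖ = 1 →
      ∃ a : EuclideanSpace ℝ (Fin 4), ∀ t ∈ Set.Icc (0 : ℝ) 1, a + t • e ∈ K)
    (hdim : dimH K < 4) :
    ∃ σ C : ℝ, 0 < σ ∧ σ < 1 ∧ ∀ k0 : ℕ, ∃ k, k0 ≤ k ∧ GluBad σ C k := by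
  classical
  obtain ⟨d, hd3, hd4, hd⟩ := glu_exists_dim hdim
  obtain ⟨m, n, h0, hT⟩ := glu_chart K hK
  set S0 : Set (Fin 3 → ℝ) := {s | ∃ b, GluWit K m n b s} with hS0
  set a : ℝ := (volume S0).toReal with ha
  have ha0 : 0 < a := ENNReal.toReal_pos h0 hT
  refine ⟨4 - d, max (96 / a) 2560000, by linarith, by linarith, fun k0 => ?_⟩
  set C : ℝ := max (96 / a) 2560000 with hC
  obtain ⟨τ, z, ρ, hρ, hsum, hcov⟩ := glu_norm_cover K d (by linarith) hd4.le hd m n k0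
  obtain ⟨k, hk, hvol⟩ := glu_scale (GluWit K m n) τ z ρ k0 hρ hcov h0 hT
  have hk1 : 1 ≤ k := by omega
  have hkR : (0 : ℝ) < (k : ℝ) ^ 2 := by
    have : (0 : ℝ) < k := by exact_mod_cast hk1
    positivity
  have hw := glu_w_pos k
  have hw12 := glu_w_ge hk1
  set Sk : Set (Fin 3 → ℝ) :=
    {s | ∃ b, GluWit K m n b s ∧ ENNReal.ofReal (gluW k) ≤ volume (gluT τ z ρ k b s)} with hSk
  obtain ⟨F, hFS, hFsep, hFvol⟩ := glu_grid Sk (fun s hs => by
    obtain ⟨b, hb, -⟩ := hs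
    exact hb.2.1) k
  choose! bb hbb using hFS
  -- marks
  have hmk : ∀ s : Fin 3 → ℝ, ∃ J : Finset ℕ, J ⊆ Finset.range (2 ^ k) ∧
      (∀ j ∈ J, ∃ t ∈ gluT τ z ρ k (bb s) s, (j : ℝ) / 2 ^ k ≤ t ∧ t < ((j : ℝ) + 1) / 2 ^ k) ∧
      volume (gluT τ z ρ k (bb s) s) ≤ ENNReal.ofReal (J.card / 2 ^ k) := fun s =>
    glu_marks _ (fun t ht => ht.1) k
  choose JJ hJ1 hJ2 hJ3 using hmk
  obtain ⟨Nk, hNk, hNcard⟩ := glu_class_card ρ d 256 (by linarith) hsum k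
  have h2k : (0 : ℝ) < 2 ^ k := by positivity
  have h23k : (0 : ℝ) < 2 ^ (3 * k) := by positivity
  refine ⟨k, hk.le, ↥F, inferInstance, fun i => bb i.1, fun i => i.1, fun i => JJ i.1, ?_, ?_, ?_, ?_, ?_, ?_⟩
  · exact fun i => (hbb i.1 i.2).1.1
  · exact fun i => (hbb i.1 i.2).1.2.1
  · intro i i' hii
    exact hFsep i.1 i.2 i'.1 i'.2 (fun h => hii (Subtype.ext h))
  · -- the number of slopes
    have h1 : ENNReal.ofReal (a * gluW k) ≤ ENNReal.ofReal (8 * F.card / 2 ^ (3 * k)) := by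
      rw [ENNReal.ofReal_mul ha0.le, ha, ENNReal.ofReal_toReal hT]
      exact hvol.trans hFvol
    have h2 : a * gluW k ≤ 8 * F.card / 2 ^ (3 * k) :=
      (ENNReal.ofReal_le_ofReal_iff (by positivity)).1 h1
    rw [le_div_iff₀ h23k] at h2
    rw [Fintype.card_coe]
    have h3 : 96 / a * (k : ℝ) ^ 2 * F.card ≤ C * (k : ℝ) ^ 2 * F.card := by
      refine mul_le_mul_of_nonneg_right (mul_le_mul_of_nonneg_right (le_max_left _ _) hkR.le) (Nat.cast_nonneg _)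
    refine le_trans ?_ h3
    have h4 : (2 : ℝ) ^ (3 * k) ≤ 12 * (k : ℝ) ^ 2 * gluW k * 2 ^ (3 * k) := by
      nlinarith
    have h5 : 96 / a * (k : ℝ) ^ 2 * F.card = 12 * (k : ℝ) ^ 2 * (8 * F.card) / a := by
      field_simp
      ring
    rw [h5, le_div_iff₀ ha0]
    calc (2 : ℝ) ^ (3 * k) * a ≤ 12 * (k : ℝ) ^ 2 * gluW k * 2 ^ (3 * k) * a :=
          mul_le_mul_of_nonneg_right h4 ha0.le
      _ = 12 * (k : ℝ) ^ 2 * (a * gluW k * 2 ^ (3 * k)) := by ring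
      _ ≤ _ := mul_le_mul_of_nonneg_left h2 (by positivity)
  · intro i
    refine ⟨hJ1 i.1, ?_⟩
    have h1 := (hbb i.1 i.2).2.trans (hJ3 i.1)
    have h2 : gluW k ≤ (JJ i.1).card / 2 ^ k := (ENNReal.ofReal_le_ofReal_iff (by positivity)).1 h1
    rw [le_div_iff₀ h2k] at h2
    have h3 : 12 * (k : ℝ) ^ 2 * (JJ i.1).card ≤ C * (k : ℝ) ^ 2 * (JJ i.1).card := by
      refine mul_le_mul_of_nonneg_right (mul_le_mul_of_nonneg_right ?_ hkR.le) (Nat.cast_nonneg _)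
      exact le_trans (by norm_num) (le_max_right _ _)
    refine le_trans ?_ h3
    calc (2 : ℝ) ^ k ≤ 12 * (k : ℝ) ^ 2 * gluW k * 2 ^ k := by nlinarith
      _ = 12 * (k : ℝ) ^ 2 * (gluW k * 2 ^ k) := by ring
      _ ≤ _ := mul_le_mul_of_nonneg_left h2 (by positivity)
  · have hc := glu_cells k τ z Nk (ι := ↥F) (fun i => bb i.1) (fun i => i.1) (fun i => JJ i.1)
      (fun i => (hbb i.1 i.2).1.2.1) (by
        intro i j hj
        obtain ⟨t, ht, h1, h2⟩ := hJ2 i.1 j hj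
        obtain ⟨-, l, hl1, hl2, hl3⟩ := ht
        refine ⟨t, h1, h2, l, (hNk l).2 ⟨hl1, hl2⟩, ?_⟩
        have e : (1 / 2 : ℝ) ^ k = 1 / 2 ^ k := by rw [one_div, inv_pow, one_div]
        rw [e] at hl2
        exact ⟨hl3.1.trans hl2, fun a' => (hl3.2 a').trans hl2⟩)
    have hc' : ((Finset.univ.biUnion fun i : ↥F => (JJ i.1).image (gluCell k (bb i.1) i.1)).card : ℝ)
        ≤ 625 * (Nk.card : ℝ) := by exact_mod_cast hc
    have e1 : (2 : ℝ) ^ (d * ((k : ℝ) + 1)) = 2 ^ d * 2 ^ (d * (k : ℝ)) := by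
      rw [← Real.rpow_add (by norm_num)]
      congr 1
      ring
    have e2 : (2 : ℝ) ^ d ≤ 16 := by
      calc (2 : ℝ) ^ d ≤ 2 ^ (4 : ℝ) := Real.rpow_le_rpow_of_exponent_le (by norm_num) hd4.le
        _ = 16 := by
          rw [show (4 : ℝ) = ((4 : ℕ) : ℝ) by norm_num, Real.rpow_natCast]
          norm_num
    have hp : (0 : ℝ) < 2 ^ (d * (k : ℝ)) := Real.rpow_pos_of_pos (by norm_num) _
    have e3 : (4 - (4 - d)) * (k : ℝ) = d * k := by ring
    rw [e3]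
    calc _ ≤ 625 * (Nk.card : ℝ) := hc'
      _ ≤ 625 * (256 * (2 : ℝ) ^ (d * ((k : ℝ) + 1))) := by linarith
      _ = 625 * 256 * 2 ^ d * 2 ^ (d * (k : ℝ)) := by rw [e1]; ring
      _ ≤ 625 * 256 * 16 * 2 ^ (d * (k : ℝ)) := by
          refine mul_le_mul_of_nonneg_right ?_ hp.le
          linarith
      _ = 2560000 * 2 ^ (d * (k : ℝ)) := by norm_num
      _ ≤ C * 2 ^ (d * (k : ℝ)) := mul_le_mul_of_nonneg_right (le_max_right _ _) hp.le

/-- **The frozen statement S0492 from the discretised Kakeya statement.** -/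
theorem glu_top (H : GluKak4) (K : Set (EuclideanSpace ℝ (Fin 4)))
    (hK : ∀ e : EuclideanSpace ℝ (Fin 4), ‖e‖ = 1 →
      ∃ a : EuclideanSpace ℝ (Fin 4), ∀ t ∈ Set.Icc (0 : ℝ) 1, a + t • e ∈ K) :
    dimH K = 4 := by
  refine le_antisymm ?_ ?_
  · calc dimH K ≤ dimH (Set.univ : Set (EuclideanSpace ℝ (Fin 4))) := dimH_mono (Set.subset_univ _)
      _ = 4 := by
        rw [Real.dimH_univ_eq_finrank, finrank_euclideanSpace_fin]
        norm_num
  · by_contra hc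
    obtain ⟨σ, C, hσ, -, hb⟩ := glu_select K hK (not_le.1 hc)
    obtain ⟨k0, hk0⟩ := H σ C hσ
    obtain ⟨k, hk, hbad⟩ := hb k0
    exact hk0 k hk hbad

end Claimed.Agent.R252
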